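import Mathlib
import Vale.Agent.Lib.P157.Lim.Defs

/-!
# P157: the general positive definite case, definitions

The potentials treated are `f s = c + log (1 - u s)` where `u` is the cosine transform of a
finite measure `ν` of total mass less than one, `u s = ∫ t, cos (t * s) ∂ν`; by Bochner's theorem
these `u` are exactly the real continuous positive definite functions with `u 0 < 1`.
Most statements are for an abstract continuous `u` with `|u| ≤ θ < 1`.
-/

open MeasureTheory ProbabilityTheory

namespace Vale.Agent.Lib.P157

/-- The cosine transform of a measure on the real line. -/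
noncomputable def cosT (ν : Measure ℝ) (s : ℝ) : ℝ := ∫ t, Real.cos (t * s) ∂ν

/-- The partition function of the Ising perceptron with weight `1 - u` per pattern, for patterns
`G a` in `ℝ^n` acting through the coefficient vectors `κ a`. -/
noncomputable def ZcU (u : ℝ → ℝ) {ι : Type*} [Fintype ι] {n : ℕ}
    (κ : ι → Fin n → ℝ) (G : ι → Fin n → ℝ) : ℝ :=
  ∑ x : Fin n → Bool, ∏ a, (1 - u (∑ i, G a i * κ a i * sg (x i)))

/-- The expected logarithm of the partition function, for independent standard Gaussian
patterns. -/
noncomputable def AcU (u : ℝ → ℝ) {ι : Type*} [Fintype ι] {n : ℕ} (κ : ι → Fin n → ℝ) : ℝ :=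
  ∫ G, Real.log (ZcU u κ G) ∂(Measure.pi (fun _ : ι => gauss n))

/-- The canonical system: `k` patterns on `n` spins. -/
noncomputable def AcanU (u : ℝ → ℝ) (n k : ℕ) : ℝ :=
  AcU u (fun (_ : Fin k) (_ : Fin n) => (Real.sqrt n)⁻¹)

end Vale.Agent.Lib.P157
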