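import Mathlib
import Vale.Agent.Lib.P157.Lim.Defs
import Vale.Agent.Lib.P157.Lim.ZcBasic
import Vale.Agent.Lib.P157.PD.Defs

/-!
# P157: basic bounds, positivity and measurability for the partition function `ZcU`

Throughout, `u` is continuous with `|u s| ≤ θ` for all `s`, and `θ < 1`.
-/

open MeasureTheory ProbabilityTheory

namespace Vale.Agent.Lib.P157

variable (u : ℝ → ℝ) (θ : ℝ)

lemma theta_nonneg (hθ : ∀ s, |u s| ≤ θ) : 0 ≤ θ := (abs_nonneg (u 0)).trans (hθ 0)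

lemma one_sub_u_lower (hθ : ∀ s, |u s| ≤ θ) (s : ℝ) : 1 - θ ≤ 1 - u s := by
  have := le_of_abs_le (hθ s)
  linarith

lemma one_sub_u_upper (hθ : ∀ s, |u s| ≤ θ) (s : ℝ) : 1 - u s ≤ 1 + θ := by
  have := neg_le_of_abs_le (hθ s)
  linarith

lemma one_sub_u_pos (hθ1 : θ < 1) (hθ : ∀ s, |u s| ≤ θ) (s : ℝ) : 0 < 1 - u s :=
  lt_of_lt_of_le (by linarith) (one_sub_u_lower u θ hθ s)

lemma log_one_add_theta_le (hθ0 : 0 ≤ θ) (hθ1 : θ < 1) :
    Real.log (1 + θ) ≤ -Real.log (1 - θ) := by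
  have h1 : 0 < 1 - θ := by linarith
  have h2 : 0 < 1 + θ := by linarith
  rw [← Real.log_inv]
  apply Real.log_le_log h2
  rw [le_inv_comm₀ h2 h1, inv_eq_one_div, le_div_iff₀ h2]
  nlinarith

lemma neg_log_one_sub_theta_nonneg (hθ0 : 0 ≤ θ) (hθ1 : θ < 1) : 0 ≤ -Real.log (1 - θ) := by
  have : Real.log (1 - θ) ≤ 0 := Real.log_nonpos (by linarith) (by linarith)
  linarith

section ZcU

variable {ι : Type*} [Fintype ι] {n : ℕ}

lemma ZcU_term_pos (hθ1 : θ < 1) (hθ : ∀ s, |u s| ≤ θ) (κ G : ι → Fin n → ℝ)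
    (x : Fin n → Bool) : 0 < ∏ a, (1 - u (∑ i, G a i * κ a i * sg (x i))) :=
  Finset.prod_pos fun _ _ => one_sub_u_pos u θ hθ1 hθ _

lemma ZcU_lower (hθ1 : θ < 1) (hθ : ∀ s, |u s| ≤ θ) (κ G : ι → Fin n → ℝ) :
    (1 - θ) ^ Fintype.card ι * 2 ^ n ≤ ZcU u κ G := by
  unfold ZcU
  have h1 : ∀ x : Fin n → Bool, (1 - θ) ^ Fintype.card ι
      ≤ ∏ a, (1 - u (∑ i, G a i * κ a i * sg (x i))) := by
    intro x
    calc (1 - θ) ^ Fintype.card ι = ∏ _a : ι, (1 - θ) := by simp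
      _ ≤ ∏ a, (1 - u (∑ i, G a i * κ a i * sg (x i))) :=
        Finset.prod_le_prod (fun _ _ => by linarith) (fun a _ => one_sub_u_lower u θ hθ _)
  calc (1 - θ) ^ Fintype.card ι * 2 ^ n
      = ∑ _x : Fin n → Bool, (1 - θ) ^ Fintype.card ι := by
        simp [mul_comm]
    _ ≤ _ := Finset.sum_le_sum fun x _ => h1 x

lemma ZcU_upper (hθ1 : θ < 1) (hθ : ∀ s, |u s| ≤ θ) (κ G : ι → Fin n → ℝ) :
    ZcU u κ G ≤ (1 + θ) ^ Fintype.card ι * 2 ^ n := by
  unfold ZcU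
  have h1 : ∀ x : Fin n → Bool, ∏ a, (1 - u (∑ i, G a i * κ a i * sg (x i)))
      ≤ (1 + θ) ^ Fintype.card ι := by
    intro x
    calc ∏ a, (1 - u (∑ i, G a i * κ a i * sg (x i))) ≤ ∏ _a : ι, (1 + θ) :=
        Finset.prod_le_prod (fun a _ => (one_sub_u_pos u θ hθ1 hθ _).le)
          (fun a _ => one_sub_u_upper u θ hθ _)
      _ = (1 + θ) ^ Fintype.card ι := by simp
  calc _ ≤ ∑ _x : Fin n → Bool, (1 + θ) ^ Fintype.card ι :=
        Finset.sum_le_sum fun x _ => h1 x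
    _ = (1 + θ) ^ Fintype.card ι * 2 ^ n := by simp [mul_comm]

lemma ZcU_pos (hθ1 : θ < 1) (hθ : ∀ s, |u s| ≤ θ) (κ G : ι → Fin n → ℝ) :
    0 < ZcU u κ G := by
  have h0 : 0 < 1 - θ := by linarith
  exact lt_of_lt_of_le (by positivity) (ZcU_lower u θ hθ1 hθ κ G)

lemma log_ZcU_le (hθ1 : θ < 1) (hθ : ∀ s, |u s| ≤ θ) (κ G : ι → Fin n → ℝ) :
    Real.log (ZcU u κ G) ≤ n * Real.log 2 + Fintype.card ι * Real.log (1 + θ) := by
  have h0 := theta_nonneg u θ hθ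
  have h := Real.log_le_log (ZcU_pos u θ hθ1 hθ κ G) (ZcU_upper u θ hθ1 hθ κ G)
  rw [Real.log_mul (by positivity) (by positivity), Real.log_pow, Real.log_pow] at h
  linarith

lemma le_log_ZcU (hθ1 : θ < 1) (hθ : ∀ s, |u s| ≤ θ) (κ G : ι → Fin n → ℝ) :
    n * Real.log 2 + Fintype.card ι * Real.log (1 - θ) ≤ Real.log (ZcU u κ G) := by
  have h1 : 0 < 1 - θ := by linarith
  have h := Real.log_le_log (by positivity) (ZcU_lower u θ hθ1 hθ κ G)
  rw [Real.log_mul (by positivity) (by positivity), Real.log_pow, Real.log_pow] at h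
  linarith

lemma abs_log_ZcU_le (hθ1 : θ < 1) (hθ : ∀ s, |u s| ≤ θ) (κ G : ι → Fin n → ℝ) :
    |Real.log (ZcU u κ G)|
      ≤ n * Real.log 2 + Fintype.card ι * (-Real.log (1 - θ)) := by
  have h0 := theta_nonneg u θ hθ
  have h1 := log_ZcU_le u θ hθ1 hθ κ G
  have h2 := le_log_ZcU u θ hθ1 hθ κ G
  have h3 := log_one_add_theta_le θ h0 hθ1
  have h4 := neg_log_one_sub_theta_nonneg θ h0 hθ1
  have h5 : (0 : ℝ) ≤ n * Real.log 2 := by positivity
  have h6 : (0 : ℝ) ≤ Fintype.card ι := by positivity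
  rw [abs_le]
  constructor
  · nlinarith
  · nlinarith

lemma continuous_ZcU_uncurry (hu : Continuous u) :
    Continuous (fun P : (ι → Fin n → ℝ) × (ι → Fin n → ℝ) => ZcU u P.1 P.2) := by
  unfold ZcU
  fun_prop

lemma measurable_ZcU_uncurry (hu : Continuous u) :
    Measurable (fun P : (ι → Fin n → ℝ) × (ι → Fin n → ℝ) => ZcU u P.1 P.2) :=
  (continuous_ZcU_uncurry u hu).measurable

lemma continuous_ZcU (hu : Continuous u) (κ : ι → Fin n → ℝ) :
    Continuous (fun G => ZcU u κ G) := by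
  unfold ZcU
  fun_prop

lemma measurable_ZcU (hu : Continuous u) (κ : ι → Fin n → ℝ) :
    Measurable (fun G => ZcU u κ G) :=
  (continuous_ZcU u hu κ).measurable

lemma measurable_log_ZcU (hu : Continuous u) (κ : ι → Fin n → ℝ) :
    Measurable (fun G => Real.log (ZcU u κ G)) :=
  Real.measurable_log.comp (measurable_ZcU u hu κ)

lemma integrable_log_ZcU (hu : Continuous u) (hθ1 : θ < 1) (hθ : ∀ s, |u s| ≤ θ)
    (κ : ι → Fin n → ℝ) (μ : Measure (ι → Fin n → ℝ)) [IsFiniteMeasure μ] :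
    Integrable (fun G => Real.log (ZcU u κ G)) μ :=
  Integrable.of_bound (measurable_log_ZcU u hu κ).aestronglyMeasurable
    (n * Real.log 2 + Fintype.card ι * (-Real.log (1 - θ)))
    (Filter.Eventually.of_forall fun G => by
      simpa [Real.norm_eq_abs] using abs_log_ZcU_le u θ hθ1 hθ κ G)

lemma abs_AcU_le (hθ1 : θ < 1) (hθ : ∀ s, |u s| ≤ θ) (κ : ι → Fin n → ℝ) :
    |AcU u κ| ≤ n * Real.log 2 + Fintype.card ι * (-Real.log (1 - θ)) := by
  unfold AcU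
  have h := norm_integral_le_of_norm_le_const (μ := Measure.pi (fun _ : ι => gauss n))
    (f := fun G => Real.log (ZcU u κ G))
    (C := n * Real.log 2 + Fintype.card ι * (-Real.log (1 - θ)))
    (Filter.Eventually.of_forall fun G => by
      simpa [Real.norm_eq_abs] using abs_log_ZcU_le u θ hθ1 hθ κ G)
  simpa [Real.norm_eq_abs] using h

lemma AcU_le (hu : Continuous u) (hθ1 : θ < 1) (hθ : ∀ s, |u s| ≤ θ) (κ : ι → Fin n → ℝ) :
    AcU u κ ≤ n * Real.log 2 + Fintype.card ι * Real.log (1 + θ) := by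
  unfold AcU
  have h := integral_mono (μ := Measure.pi (fun _ : ι => gauss n))
    (integrable_log_ZcU u θ hu hθ1 hθ κ _) (integrable_const _)
    (fun G => log_ZcU_le u θ hθ1 hθ κ G)
  simpa using h

end ZcU

end Vale.Agent.Lib.P157
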