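import Mathlib
import Vale.Agent.Lib.P157.Lim.Defs
import Vale.Agent.Lib.P157.Lim.Blocks
import Vale.Agent.Lib.P157.PD.Defs
import Vale.Agent.Lib.P157.PD.ZcBasic

/-!
# P157: block factorisation of the expected log partition function, abstract weight `1 - u`

Port of `Ac_blocks` (`Lim/Blocks.lean`) to an abstract continuous `u` with `|u| ≤ θ < 1`:
if every pattern lives on one of the two blocks of `Fin (N1 + N2)`, the system is a product of
two independent canonical systems, so `E log Z` splits as a sum.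
-/

open MeasureTheory ProbabilityTheory

namespace Vale.Agent.Lib.P157

/-- Pointwise factorisation of the partition function over the two blocks. -/
lemma blocksu_ZcU_eq (u : ℝ → ℝ) (N1 N2 M : ℕ) (β : Fin M → Bool)
    (G : Fin M → Fin (N1 + N2) → ℝ) :
    ZcU u (fun a : Fin M => if β a then blockCoef1 N1 N2 else blockCoef2 N1 N2) G
      = (∑ x1 : Fin N1 → Bool, ∏ a ∈ Finset.univ.filter (fun a => β a = true),
            (1 - u
              (∑ i : Fin N1, G a (Fin.castAdd N2 i) * (Real.sqrt N1)⁻¹ * sg (x1 i))))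
        * (∑ x2 : Fin N2 → Bool, ∏ a ∈ Finset.univ.filter (fun a => β a = false),
            (1 - u
              (∑ i : Fin N2, G a (Fin.natAdd N1 i) * (Real.sqrt N2)⁻¹ * sg (x2 i)))) := by
  unfold ZcU
  rw [Finset.sum_mul_sum, ← Finset.sum_product', Finset.univ_product_univ,
    ← (Fin.appendEquiv N1 N2).sum_comp]
  refine Finset.sum_congr rfl fun p _ => ?_
  rw [← Finset.prod_filter_mul_prod_filter_not Finset.univ (fun a => β a = true)]
  congr 1
  · refine Finset.prod_congr rfl fun a ha => ?_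
    have hβ : β a = true := (Finset.mem_filter.1 ha).2
    simp only [hβ, if_true]
    congr 2
    rw [Fin.sum_univ_add]
    simp [blockCoef1, Fin.appendEquiv]
  · have hfil : Finset.filter (fun a => ¬ β a = true) Finset.univ
        = Finset.filter (fun a => β a = false) Finset.univ := by
      ext a; simp
    rw [hfil]
    refine Finset.prod_congr rfl fun a ha => ?_
    have hβ : β a = false := (Finset.mem_filter.1 ha).2
    simp only [hβ]
    congr 2
    rw [Fin.sum_univ_add]
    simp [blockCoef2, Fin.appendEquiv]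

/-- A block partition function is the canonical partition function of a sub-array. -/
lemma blocksu_sum_eq_ZcU (u : ℝ → ℝ) {M n m : ℕ} (s : Finset (Fin M)) (c : Fin m → Fin n)
    (r : ℝ) (G : Fin M → Fin n → ℝ) :
    (∑ x : Fin m → Bool, ∏ a ∈ s, (1 - u (∑ i : Fin m, G a (c i) * r * sg (x i))))
      = ZcU u (fun (_ : Fin s.card) (_ : Fin m) => r)
          (fun j i => G (s.orderEmbOfFin rfl j) (c i)) := by
  unfold ZcU
  refine Finset.sum_congr rfl fun x _ => ?_
  exact blocks_prod_orderEmb s _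

theorem AcU_blocks (u : ℝ → ℝ) (hu : Continuous u) (θ : ℝ) (hθ1 : θ < 1) (hθ : ∀ s, |u s| ≤ θ)
    (N1 N2 M : ℕ) (β : Fin M → Bool) :
    AcU u (fun a : Fin M => if β a then blockCoef1 N1 N2 else blockCoef2 N1 N2)
      = AcanU u N1 (Finset.univ.filter (fun a => β a = true)).card
        + AcanU u N2 (Finset.univ.filter (fun a => β a = false)).card := by
  classical
  set s1 : Finset (Fin M) := Finset.univ.filter (fun a => β a = true) with hs1
  set s2 : Finset (Fin M) := Finset.univ.filter (fun a => β a = false) with hs2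
  set Φ1 : (Fin M → Fin (N1 + N2) → ℝ) → (Fin s1.card → Fin N1 → ℝ) :=
    fun G j i => G (s1.orderEmbOfFin rfl j) (Fin.castAdd N2 i) with hΦ1
  set Φ2 : (Fin M → Fin (N1 + N2) → ℝ) → (Fin s2.card → Fin N2 → ℝ) :=
    fun G j i => G (s2.orderEmbOfFin rfl j) (Fin.natAdd N1 i) with hΦ2
  have hm1 : Measurable Φ1 :=
    measurable_pi_lambda _ fun j => measurable_pi_lambda _ fun i =>
      (measurable_pi_apply (Fin.castAdd N2 i)).comp (measurable_pi_apply (s1.orderEmbOfFin rfl j))
  have hm2 : Measurable Φ2 :=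
    measurable_pi_lambda _ fun j => measurable_pi_lambda _ fun i =>
      (measurable_pi_apply (Fin.natAdd N1 i)).comp (measurable_pi_apply (s2.orderEmbOfFin rfl j))
  have hlaw1 : (Measure.pi (fun _ : Fin M => gauss (N1 + N2))).map Φ1
      = Measure.pi (fun _ : Fin s1.card => gauss N1) :=
    blocks_law (s1.orderEmbOfFin rfl) (s1.orderEmbOfFin rfl).injective (Fin.castAdd N2)
      (Fin.castAdd_injective N1 N2)
  have hlaw2 : (Measure.pi (fun _ : Fin M => gauss (N1 + N2))).map Φ2
      = Measure.pi (fun _ : Fin s2.card => gauss N2) :=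
    blocks_law (s2.orderEmbOfFin rfl) (s2.orderEmbOfFin rfl).injective (Fin.natAdd N1)
      (Fin.natAdd_injective N2 N1)
  have hpt : ∀ G : Fin M → Fin (N1 + N2) → ℝ,
      Real.log (ZcU u (fun a : Fin M => if β a then blockCoef1 N1 N2 else blockCoef2 N1 N2) G)
        = Real.log (ZcU u (fun (_ : Fin s1.card) (_ : Fin N1) => (Real.sqrt N1)⁻¹) (Φ1 G))
          + Real.log
            (ZcU u (fun (_ : Fin s2.card) (_ : Fin N2) => (Real.sqrt N2)⁻¹) (Φ2 G)) := by
    intro G
    rw [blocksu_ZcU_eq, blocksu_sum_eq_ZcU u s1 (Fin.castAdd N2) _ G,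
      blocksu_sum_eq_ZcU u s2 (Fin.natAdd N1) _ G,
      Real.log_mul (ZcU_pos u θ hθ1 hθ _ _).ne' (ZcU_pos u θ hθ1 hθ _ _).ne']
  have hi1 : Integrable (fun G => Real.log
      (ZcU u (fun (_ : Fin s1.card) (_ : Fin N1) => (Real.sqrt N1)⁻¹) (Φ1 G)))
      (Measure.pi (fun _ : Fin M => gauss (N1 + N2))) :=
    (integrable_log_ZcU u θ hu hθ1 hθ _ _).comp_measurable hm1
  have hi2 : Integrable (fun G => Real.log
      (ZcU u (fun (_ : Fin s2.card) (_ : Fin N2) => (Real.sqrt N2)⁻¹) (Φ2 G)))
      (Measure.pi (fun _ : Fin M => gauss (N1 + N2))) :=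
    (integrable_log_ZcU u θ hu hθ1 hθ _ _).comp_measurable hm2
  have e1 : ∫ G, Real.log
      (ZcU u (fun (_ : Fin s1.card) (_ : Fin N1) => (Real.sqrt N1)⁻¹) (Φ1 G))
      ∂(Measure.pi (fun _ : Fin M => gauss (N1 + N2))) = AcanU u N1 s1.card := by
    unfold AcanU AcU
    rw [← hlaw1, integral_map hm1.aemeasurable
      (measurable_log_ZcU u hu _).aestronglyMeasurable]
  have e2 : ∫ G, Real.log
      (ZcU u (fun (_ : Fin s2.card) (_ : Fin N2) => (Real.sqrt N2)⁻¹) (Φ2 G))
      ∂(Measure.pi (fun _ : Fin M => gauss (N1 + N2))) = AcanU u N2 s2.card := by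
    unfold AcanU AcU
    rw [← hlaw2, integral_map hm2.aemeasurable
      (measurable_log_ZcU u hu _).aestronglyMeasurable]
  rw [← e1, ← e2, ← integral_add hi1 hi2]
  unfold AcU
  exact integral_congr_ae (Filter.Eventually.of_forall hpt)

end Vale.Agent.Lib.P157
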