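import Mathlib
import Vale.Agent.Lib.P157.Lim.Defs
import Vale.Agent.Lib.P157.PD.Defs
import Vale.Agent.Lib.P157.PD.ZcBasic
import Vale.Agent.Lib.P157.Lim.Chain

/-!
# P157: the interpolation chain for an abstract weight `1 - u`

Port of `Lim/Chain.lean` to a continuous `u` with `|u| ≤ θ < 1`.
-/

open MeasureTheory ProbabilityTheory

namespace Vale.Agent.Lib.P157

section chainuMain

variable (u : ℝ → ℝ)

/-- the factor of one pattern `g` acting through the coefficient vector `c` -/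
noncomputable def chainuT {n : ℕ} (c g : Fin n → ℝ) (x : Fin n → Bool) : ℝ :=
  1 - u (∑ i, g i * c i * sg (x i))

/-- the partition function with a weight `w` on the configurations -/
noncomputable def chainuS {n M : ℕ} (w : (Fin n → Bool) → ℝ) (κ : Fin M → Fin n → ℝ)
    (G : Fin M → Fin n → ℝ) : ℝ :=
  ∑ x, w x * ∏ a, chainuT u (κ a) (G a) x

variable {n : ℕ}

lemma chainu_T_pos (θ : ℝ) (hθ1 : θ < 1) (hθ : ∀ s, |u s| ≤ θ) (c g : Fin n → ℝ)
    (x : Fin n → Bool) : 0 < chainuT u c g x :=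
  one_sub_u_pos u θ hθ1 hθ _

lemma chainu_S_lower (θ : ℝ) (hθ1 : θ < 1) (hθ : ∀ s, |u s| ≤ θ) {M : ℕ}
    (w : (Fin n → Bool) → ℝ) (hw : ∀ x, 0 < w x) (κ G : Fin M → Fin n → ℝ) :
    ∑ x, w x * (1 - θ) ^ M ≤ chainuS u w κ G := by
  unfold chainuS
  refine Finset.sum_le_sum (fun x _ => mul_le_mul_of_nonneg_left ?_ (hw x).le)
  calc (1 - θ) ^ M = ∏ _a : Fin M, (1 - θ) := by simp
    _ ≤ ∏ a, chainuT u (κ a) (G a) x :=
      Finset.prod_le_prod (fun _ _ => by linarith) (fun a _ => one_sub_u_lower u θ hθ _)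

lemma chainu_S_upper (θ : ℝ) (hθ1 : θ < 1) (hθ : ∀ s, |u s| ≤ θ) {M : ℕ}
    (w : (Fin n → Bool) → ℝ) (hw : ∀ x, 0 < w x) (κ G : Fin M → Fin n → ℝ) :
    chainuS u w κ G ≤ ∑ x, w x * (1 + θ) ^ M := by
  unfold chainuS
  refine Finset.sum_le_sum (fun x _ => mul_le_mul_of_nonneg_left ?_ (hw x).le)
  calc ∏ a, chainuT u (κ a) (G a) x ≤ ∏ _a : Fin M, (1 + θ) :=
      Finset.prod_le_prod (fun a _ => (chainu_T_pos u θ hθ1 hθ _ _ _).le)
        (fun a _ => one_sub_u_upper u θ hθ _)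
    _ = (1 + θ) ^ M := by simp

lemma chainu_lo_pos (θ : ℝ) (hθ1 : θ < 1) (M : ℕ)
    (w : (Fin n → Bool) → ℝ) (hw : ∀ x, 0 < w x) :
    0 < ∑ x, w x * (1 - θ) ^ M :=
  Finset.sum_pos (fun x _ => mul_pos (hw x) (pow_pos (by linarith) _)) Finset.univ_nonempty

lemma chainu_S_pos (θ : ℝ) (hθ1 : θ < 1) (hθ : ∀ s, |u s| ≤ θ) {M : ℕ}
    (w : (Fin n → Bool) → ℝ) (hw : ∀ x, 0 < w x) (κ G : Fin M → Fin n → ℝ) :
    0 < chainuS u w κ G :=
  lt_of_lt_of_le (chainu_lo_pos θ hθ1 M w hw) (chainu_S_lower u θ hθ1 hθ w hw κ G)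

lemma chainu_abs_log_le (θ : ℝ) (hθ1 : θ < 1) (hθ : ∀ s, |u s| ≤ θ) {M : ℕ}
    (w : (Fin n → Bool) → ℝ) (hw : ∀ x, 0 < w x) (κ G : Fin M → Fin n → ℝ) :
    |Real.log (chainuS u w κ G)| ≤
      |Real.log (∑ x, w x * (1 - θ) ^ M)| + |Real.log (∑ x, w x * (1 + θ) ^ M)| := by
  have h1 := Real.log_le_log (chainu_lo_pos θ hθ1 M w hw) (chainu_S_lower u θ hθ1 hθ w hw κ G)
  have h2 := Real.log_le_log (chainu_S_pos u θ hθ1 hθ w hw κ G)
    (chainu_S_upper u θ hθ1 hθ w hw κ G)
  have h3 := neg_abs_le (Real.log (∑ x, w x * (1 - θ) ^ M))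
  have h4 := le_abs_self (Real.log (∑ x, w x * (1 + θ) ^ M))
  have h5 := abs_nonneg (Real.log (∑ x, w x * (1 - θ) ^ M))
  have h6 := abs_nonneg (Real.log (∑ x, w x * (1 + θ) ^ M))
  rw [abs_le]
  constructor
  · linarith
  · linarith

lemma chainu_continuous_S (hu : Continuous u) {M : ℕ} (w : (Fin n → Bool) → ℝ)
    (κ : Fin M → Fin n → ℝ) :
    Continuous (fun G : Fin M → Fin n → ℝ => chainuS u w κ G) := by
  unfold chainuS chainuT
  fun_prop

lemma chainu_integrable_log_S (hu : Continuous u) (θ : ℝ) (hθ1 : θ < 1) (hθ : ∀ s, |u s| ≤ θ) {M : ℕ}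
    (w : (Fin n → Bool) → ℝ) (hw : ∀ x, 0 < w x) (κ : Fin M → Fin n → ℝ)
    (μ : Measure (Fin M → Fin n → ℝ)) [IsFiniteMeasure μ] :
    Integrable (fun G => Real.log (chainuS u w κ G)) μ :=
  Integrable.of_bound
    (Real.measurable_log.comp (chainu_continuous_S u hu w κ).measurable).aestronglyMeasurable
    (|Real.log (∑ x, w x * (1 - θ) ^ M)| + |Real.log (∑ x, w x * (1 + θ) ^ M)|)
    (Filter.Eventually.of_forall fun G => by
      rw [Real.norm_eq_abs]
      exact chainu_abs_log_le u θ hθ1 hθ w hw κ G)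

/-- splitting off the first pattern: it becomes part of the weight -/
lemma chainu_S_cons {M : ℕ} (w : (Fin n → Bool) → ℝ) (c : Fin n → ℝ) (κ' : Fin M → Fin n → ℝ)
    (g : Fin n → ℝ) (G' : Fin M → Fin n → ℝ) :
    chainuS u w (Fin.cons c κ' : Fin (M + 1) → Fin n → ℝ)
        (Fin.cons g G' : Fin (M + 1) → Fin n → ℝ) =
      chainuS u (fun x => w x * chainuT u c g x) κ' G' := by
  unfold chainuS
  refine Finset.sum_congr rfl (fun x _ => ?_)
  rw [Fin.prod_univ_succ]
  simp only [Fin.cons_zero, Fin.cons_succ]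
  rw [mul_assoc]

/-- the first pattern as the last factor -/
lemma chainu_S_regroup {M : ℕ} (w : (Fin n → Bool) → ℝ) (c : Fin n → ℝ)
    (κ' : Fin M → Fin n → ℝ) (g : Fin n → ℝ) (G' : Fin M → Fin n → ℝ) :
    chainuS u (fun x => w x * chainuT u c g x) κ' G' =
      ∑ x, (w x * ∏ a, chainuT u (κ' a) (G' a) x) * chainuT u c g x := by
  unfold chainuS
  refine Finset.sum_congr rfl (fun x _ => ?_)
  ring

/-- the logarithm of the partition function with the first pattern split off -/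
noncomputable def chainuD {M : ℕ} (w : (Fin n → Bool) → ℝ) (c : Fin n → ℝ)
    (κ' : Fin M → Fin n → ℝ) (z : (Fin n → ℝ) × (Fin M → Fin n → ℝ)) : ℝ :=
  Real.log (chainuS u (fun x => w x * chainuT u c z.1 x) κ' z.2)

lemma chainu_integrable_D (hu : Continuous u) (θ : ℝ) (hθ1 : θ < 1) (hθ : ∀ s, |u s| ≤ θ) {M : ℕ}
    (w : (Fin n → Bool) → ℝ) (hw : ∀ x, 0 < w x) (c : Fin n → ℝ) (κ' : Fin M → Fin n → ℝ) :
    Integrable (chainuD u w c κ')
      ((gauss n).prod (Measure.pi (fun _ : Fin M => gauss n))) := by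
  have h := chain_integrable_pi_succ (gauss n) M _
    (chainu_integrable_log_S u hu θ hθ1 hθ w hw (Fin.cons c κ' : Fin (M + 1) → Fin n → ℝ)
      (Measure.pi (fun _ : Fin (M + 1) => gauss n)))
  have h2 : (fun z : (Fin n → ℝ) × (Fin M → Fin n → ℝ) =>
      Real.log (chainuS u w (Fin.cons c κ' : Fin (M + 1) → Fin n → ℝ)
        (Fin.cons z.1 z.2 : Fin (M + 1) → Fin n → ℝ))) = chainuD u w c κ' := by
    funext z
    unfold chainuD
    rw [chainu_S_cons]
  rw [h2] at h
  exact h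

lemma chainu_integral_D {M : ℕ} (w : (Fin n → Bool) → ℝ) (c : Fin n → ℝ)
    (κ' : Fin M → Fin n → ℝ) :
    ∫ G, Real.log (chainuS u w (Fin.cons c κ' : Fin (M + 1) → Fin n → ℝ) G)
        ∂(Measure.pi (fun _ : Fin (M + 1) => gauss n)) =
      ∫ z, chainuD u w c κ' z ∂((gauss n).prod (Measure.pi (fun _ : Fin M => gauss n))) := by
  rw [chain_integral_pi_succ (gauss n) M]
  refine integral_congr_ae (Filter.Eventually.of_forall (fun z => ?_))
  show Real.log _ = chainuD u w c κ' z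
  unfold chainuD
  rw [chainu_S_cons]

/-- the patterns other than the first one are replaced, using the induction hypothesis -/
lemma chainu_step_B (hu : Continuous u) (θ : ℝ) (hθ1 : θ < 1) (hθ : ∀ s, |u s| ≤ θ) (c0 c1 c2 : Fin n → ℝ) (p : ℝ)
    (hp0 : 0 ≤ p) (hp1 : p ≤ 1) (M : ℕ)
    (ih : ∀ (w : (Fin n → Bool) → ℝ), (∀ x, 0 < w x) →
      ∫ β, (∫ G, Real.log (chainuS u w (fun a : Fin M => if β a then c1 else c2) G)
          ∂(Measure.pi (fun _ : Fin M => gauss n))) ∂(Measure.pi (fun _ : Fin M => bern p))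
        ≤ ∫ G, Real.log (chainuS u w (fun _ : Fin M => c0) G)
          ∂(Measure.pi (fun _ : Fin M => gauss n)))
    (w : (Fin n → Bool) → ℝ) (hw : ∀ x, 0 < w x) (c : Fin n → ℝ) :
    ∫ β', (∫ G, Real.log (chainuS u w
        (Fin.cons c (fun a : Fin M => if β' a then c1 else c2) : Fin (M + 1) → Fin n → ℝ) G)
          ∂(Measure.pi (fun _ : Fin (M + 1) => gauss n)))
        ∂(Measure.pi (fun _ : Fin M => bern p))
      ≤ ∫ z, chainuD u w c (fun _ : Fin M => c0) z
        ∂((gauss n).prod (Measure.pi (fun _ : Fin M => gauss n))) := by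
  have hprob := chain_bern_prob p hp0 hp1
  have h1 : ∀ β' : Fin M → Bool, (∫ G, Real.log (chainuS u w
      (Fin.cons c (fun a : Fin M => if β' a then c1 else c2) : Fin (M + 1) → Fin n → ℝ) G)
        ∂(Measure.pi (fun _ : Fin (M + 1) => gauss n))) =
      ∫ g, (∫ G', chainuD u w c (fun a : Fin M => if β' a then c1 else c2) (g, G')
        ∂(Measure.pi (fun _ : Fin M => gauss n))) ∂(gauss n) := by
    intro β'
    rw [chainu_integral_D, integral_prod _ (chainu_integrable_D u hu θ hθ1 hθ w hw c _)]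
  simp only [h1]
  rw [chain_fin_swap (Measure.pi (fun _ : Fin M => bern p)) (gauss n)
    (fun β' g => ∫ G', chainuD u w c (fun a : Fin M => if β' a then c1 else c2) (g, G')
      ∂(Measure.pi (fun _ : Fin M => gauss n)))
    (fun β' => (chainu_integrable_D u hu θ hθ1 hθ w hw c _).integral_prod_left)]
  rw [integral_prod _ (chainu_integrable_D u hu θ hθ1 hθ w hw c _)]
  refine integral_mono (chain_fin_integrable _ _ _
    (fun β' => (chainu_integrable_D u hu θ hθ1 hθ w hw c _).integral_prod_left))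
    (chainu_integrable_D u hu θ hθ1 hθ w hw c _).integral_prod_left (fun g => ?_)
  exact ih (fun x => w x * chainuT u c g x)
    (fun x => mul_pos (hw x) (chainu_T_pos u θ hθ1 hθ c g x))

/-- the first pattern is replaced, using the one-pattern inequality -/
lemma chainu_step_C (hu : Continuous u) (θ : ℝ) (hθ1 : θ < 1) (hθ : ∀ s, |u s| ≤ θ) (c0 c1 c2 : Fin n → ℝ) (p : ℝ)
    (hL : ∀ w : (Fin n → Bool) → ℝ, (∀ x, 0 < w x) →
      p * ∫ g, Real.log (∑ x, w x * chainuT u c1 g x) ∂(gauss n)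
        + (1 - p) * ∫ g, Real.log (∑ x, w x * chainuT u c2 g x) ∂(gauss n)
      ≤ ∫ g, Real.log (∑ x, w x * chainuT u c0 g x) ∂(gauss n))
    (M : ℕ) (w : (Fin n → Bool) → ℝ) (hw : ∀ x, 0 < w x) :
    p * ∫ z, chainuD u w c1 (fun _ : Fin M => c0) z
          ∂((gauss n).prod (Measure.pi (fun _ : Fin M => gauss n))) +
        (1 - p) * ∫ z, chainuD u w c2 (fun _ : Fin M => c0) z
          ∂((gauss n).prod (Measure.pi (fun _ : Fin M => gauss n)))
      ≤ ∫ z, chainuD u w c0 (fun _ : Fin M => c0) z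
          ∂((gauss n).prod (Measure.pi (fun _ : Fin M => gauss n))) := by
  have hD := fun c => chainu_integrable_D u hu θ hθ1 hθ w hw c (fun _ : Fin M => c0)
  have e1 : p * ∫ z, chainuD u w c1 (fun _ : Fin M => c0) z
          ∂((gauss n).prod (Measure.pi (fun _ : Fin M => gauss n))) +
        (1 - p) * ∫ z, chainuD u w c2 (fun _ : Fin M => c0) z
          ∂((gauss n).prod (Measure.pi (fun _ : Fin M => gauss n))) =
      ∫ G', (p * ∫ g, chainuD u w c1 (fun _ : Fin M => c0) (g, G') ∂(gauss n) +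
        (1 - p) * ∫ g, chainuD u w c2 (fun _ : Fin M => c0) (g, G') ∂(gauss n))
        ∂(Measure.pi (fun _ : Fin M => gauss n)) := by
    rw [integral_add ((hD c1).integral_prod_right.const_mul p)
      ((hD c2).integral_prod_right.const_mul (1 - p)), integral_const_mul, integral_const_mul,
      integral_prod_symm _ (hD c1), integral_prod_symm _ (hD c2)]
  rw [e1, integral_prod_symm _ (hD c0)]
  refine integral_mono (((hD c1).integral_prod_right.const_mul p).add
    ((hD c2).integral_prod_right.const_mul (1 - p))) (hD c0).integral_prod_right (fun G' => ?_)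
  have key : ∀ c : Fin n → ℝ,
      (fun g : Fin n → ℝ => chainuD u w c (fun _ : Fin M => c0) (g, G')) =
        fun g => Real.log (∑ x, (w x * ∏ a, chainuT u c0 (G' a) x) * chainuT u c g x) := by
    intro c
    funext g
    unfold chainuD
    rw [chainu_S_regroup]
  show p * ∫ g, chainuD u w c1 (fun _ : Fin M => c0) (g, G') ∂(gauss n) +
      (1 - p) * ∫ g, chainuD u w c2 (fun _ : Fin M => c0) (g, G') ∂(gauss n) ≤
    ∫ g, chainuD u w c0 (fun _ : Fin M => c0) (g, G') ∂(gauss n)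
  rw [key c1, key c2, key c0]
  exact hL (fun x => w x * ∏ a, chainuT u c0 (G' a) x)
    (fun x => mul_pos (hw x) (Finset.prod_pos (fun a _ => chainu_T_pos u θ hθ1 hθ _ _ _)))

/-- the chain inequality with an arbitrary positive weight on the configurations -/
theorem chainu_main (hu : Continuous u) (θ : ℝ) (hθ1 : θ < 1) (hθ : ∀ s, |u s| ≤ θ) (c0 c1 c2 : Fin n → ℝ) (p : ℝ)
    (hp0 : 0 ≤ p) (hp1 : p ≤ 1)
    (hL : ∀ w : (Fin n → Bool) → ℝ, (∀ x, 0 < w x) →
      p * ∫ g, Real.log (∑ x, w x * chainuT u c1 g x) ∂(gauss n)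
        + (1 - p) * ∫ g, Real.log (∑ x, w x * chainuT u c2 g x) ∂(gauss n)
      ≤ ∫ g, Real.log (∑ x, w x * chainuT u c0 g x) ∂(gauss n)) :
    ∀ (M : ℕ) (w : (Fin n → Bool) → ℝ), (∀ x, 0 < w x) →
      ∫ β, (∫ G, Real.log (chainuS u w (fun a : Fin M => if β a then c1 else c2) G)
          ∂(Measure.pi (fun _ : Fin M => gauss n))) ∂(Measure.pi (fun _ : Fin M => bern p))
        ≤ ∫ G, Real.log (chainuS u w (fun _ : Fin M => c0) G)
          ∂(Measure.pi (fun _ : Fin M => gauss n)) := by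
  have hprob := chain_bern_prob p hp0 hp1
  intro M
  induction M with
  | zero =>
    intro w hw
    have h : ∀ β : Fin 0 → Bool,
        (∫ G, Real.log (chainuS u w (fun a : Fin 0 => if β a then c1 else c2) G)
          ∂(Measure.pi (fun _ : Fin 0 => gauss n))) =
        ∫ G, Real.log (chainuS u w (fun _ : Fin 0 => c0) G)
          ∂(Measure.pi (fun _ : Fin 0 => gauss n)) := by
      intro β
      refine integral_congr_ae (Filter.Eventually.of_forall (fun G => ?_))
      show Real.log _ = Real.log _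
      unfold chainuS
      simp only [Finset.univ_eq_empty, Finset.prod_empty]
    simp only [h]
    rw [integral_const, probReal_univ, one_smul]
  | succ M ih =>
    intro w hw
    rw [chain_integral_coin p hp0 hp1 M]
    simp only [chain_cons_true, chain_cons_false]
    have hB1 := chainu_step_B u hu θ hθ1 hθ c0 c1 c2 p hp0 hp1 M ih w hw c1
    have hB2 := chainu_step_B u hu θ hθ1 hθ c0 c1 c2 p hp0 hp1 M ih w hw c2
    have hC := chainu_step_C u hu θ hθ1 hθ c0 c1 c2 p hL M w hw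
    have hD : ∫ G, Real.log (chainuS u w (fun _ : Fin (M + 1) => c0) G)
          ∂(Measure.pi (fun _ : Fin (M + 1) => gauss n)) =
        ∫ z, chainuD u w c0 (fun _ : Fin M => c0) z
          ∂((gauss n).prod (Measure.pi (fun _ : Fin M => gauss n))) := by
      rw [← chainu_integral_D, chain_cons_const]
    rw [hD]
    exact le_trans (add_le_add (mul_le_mul_of_nonneg_left hB1 hp0)
      (mul_le_mul_of_nonneg_left hB2 (by linarith))) hC

end chainuMain

/-- `M` patterns, each acting through `c1` with probability `p` and through `c2` with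
probability `1 - p`, independently, give a smaller expected logarithm of the partition function
than `M` patterns acting through `c0`, given the one-pattern inequality `hL` for arbitrary
positive weights; abstract weight `1 - u`. -/
theorem mixU_le_full (u : ℝ → ℝ) (hu : Continuous u) (θ : ℝ) (hθ1 : θ < 1) (hθ : ∀ s, |u s| ≤ θ)
    {n : ℕ} (c0 c1 c2 : Fin n → ℝ) (p : ℝ) (hp0 : 0 ≤ p) (hp1 : p ≤ 1)
    (hL : ∀ w : (Fin n → Bool) → ℝ, (∀ x, 0 < w x) →
      p * ∫ g, Real.log (∑ x, w x * (1 - u (∑ i, g i * c1 i * sg (x i)))) ∂(gauss n)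
        + (1 - p) * ∫ g, Real.log (∑ x, w x * (1 - u (∑ i, g i * c2 i * sg (x i))))
          ∂(gauss n)
      ≤ ∫ g, Real.log (∑ x, w x * (1 - u (∑ i, g i * c0 i * sg (x i)))) ∂(gauss n))
    (M : ℕ) :
    ∫ β, AcU u (fun a : Fin M => if β a then c1 else c2) ∂(Measure.pi (fun _ : Fin M => bern p))
      ≤ AcU u (fun _ : Fin M => c0) := by
  have h := chainu_main u hu θ hθ1 hθ c0 c1 c2 p hp0 hp1 hL M (fun _ => 1) (fun _ => one_pos)
  have hZ : ∀ (κ G : Fin M → Fin n → ℝ), chainuS u (fun _ => 1) κ G = ZcU u κ G := by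
    intro κ G
    unfold chainuS ZcU chainuT
    simp only [one_mul]
  simp only [hZ] at h
  exact h

end Vale.Agent.Lib.P157
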