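import Mathlib
import Vale.Agent.Lib.P157.Lim.Defs
import Vale.Agent.Lib.P157.Lim.Lipschitz
import Vale.Agent.Lib.P157.PD.Defs
import Vale.Agent.Lib.P157.PD.ZcBasic

/-!
# P157: `AcanU` is Lipschitz in the number of patterns

Adding one pattern changes `E log Z` by at most `-log (1 - θ)`, for an abstract continuous
weight `1 - u` with `|u| ≤ θ < 1`.
-/

open MeasureTheory ProbabilityTheory

namespace Vale.Agent.Lib.P157

/-- Pointwise comparison of the partition functions with `k + 1` and `k` patterns. -/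
lemma lipu_ZcU_succ_bounds (u : ℝ → ℝ) (θ : ℝ) (hθ1 : θ < 1) (hθ : ∀ s, |u s| ≤ θ)
    (n k : ℕ) (c : ℝ) (G : Fin (k + 1) → Fin n → ℝ) :
    (1 - θ) * ZcU u (fun (_ : Fin k) (_ : Fin n) => c) (fun a => G (Fin.castSucc a))
        ≤ ZcU u (fun (_ : Fin (k + 1)) (_ : Fin n) => c) G ∧
      ZcU u (fun (_ : Fin (k + 1)) (_ : Fin n) => c) G
        ≤ (1 + θ) * ZcU u (fun (_ : Fin k) (_ : Fin n) => c)
            (fun a => G (Fin.castSucc a)) := by
  unfold ZcU
  rw [Finset.mul_sum, Finset.mul_sum]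
  constructor
  · refine Finset.sum_le_sum fun x _ => ?_
    rw [Fin.prod_univ_castSucc]
    have hpos : 0 < ∏ a : Fin k, (1 - u (∑ i, G (Fin.castSucc a) i * c * sg (x i))) :=
      Finset.prod_pos fun _ _ => one_sub_u_pos u θ hθ1 hθ _
    have hl := one_sub_u_lower u θ hθ (∑ i, G (Fin.last k) i * c * sg (x i))
    rw [mul_comm]
    exact mul_le_mul_of_nonneg_left hl hpos.le
  · refine Finset.sum_le_sum fun x _ => ?_
    rw [Fin.prod_univ_castSucc]
    have hpos : 0 < ∏ a : Fin k, (1 - u (∑ i, G (Fin.castSucc a) i * c * sg (x i))) :=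
      Finset.prod_pos fun _ _ => one_sub_u_pos u θ hθ1 hθ _
    have hu := one_sub_u_upper u θ hθ (∑ i, G (Fin.last k) i * c * sg (x i))
    rw [mul_comm (1 + θ)]
    exact mul_le_mul_of_nonneg_left hu hpos.le

/-- Pointwise comparison of the logarithms. -/
lemma lipu_abs_log_ZcU_succ_sub (u : ℝ → ℝ) (θ : ℝ) (hθ1 : θ < 1) (hθ : ∀ s, |u s| ≤ θ)
    (n k : ℕ) (c : ℝ) (G : Fin (k + 1) → Fin n → ℝ) :
    |Real.log (ZcU u (fun (_ : Fin (k + 1)) (_ : Fin n) => c) G)
        - Real.log (ZcU u (fun (_ : Fin k) (_ : Fin n) => c) (fun a => G (Fin.castSucc a)))|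
      ≤ -Real.log (1 - θ) := by
  have h0 := theta_nonneg u θ hθ
  have h1 : 0 < 1 - θ := by linarith
  have h2 : 0 < 1 + θ := by linarith
  obtain ⟨hlo, hhi⟩ := lipu_ZcU_succ_bounds u θ hθ1 hθ n k c G
  have hZ : 0 < ZcU u (fun (_ : Fin k) (_ : Fin n) => c) (fun a => G (Fin.castSucc a)) :=
    ZcU_pos u θ hθ1 hθ _ _
  have hZ' : 0 < ZcU u (fun (_ : Fin (k + 1)) (_ : Fin n) => c) G := ZcU_pos u θ hθ1 hθ _ _
  have e1 := Real.log_le_log (mul_pos h1 hZ) hlo
  have e2 := Real.log_le_log hZ' hhi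
  rw [Real.log_mul h1.ne' hZ.ne'] at e1
  rw [Real.log_mul h2.ne' hZ.ne'] at e2
  have e3 := log_one_add_theta_le θ h0 hθ1
  rw [abs_le]
  constructor <;> linarith

/-- One step: adding one pattern changes `AcanU` by at most `-log (1 - θ)`. -/
lemma lipu_AcanU_succ (u : ℝ → ℝ) (hu : Continuous u) (θ : ℝ) (hθ1 : θ < 1)
    (hθ : ∀ s, |u s| ≤ θ) (n k : ℕ) :
    |AcanU u n (k + 1) - AcanU u n k| ≤ -Real.log (1 - θ) := by
  set c : ℝ := (Real.sqrt n)⁻¹ with hc
  have hmp := lip_measurePreserving_castSucc n k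
  have hk : AcanU u n k = ∫ G, Real.log (ZcU u (fun (_ : Fin k) (_ : Fin n) => c)
      (fun a => G (Fin.castSucc a))) ∂(Measure.pi (fun _ : Fin (k + 1) => gauss n)) := by
    unfold AcanU AcU
    rw [← hmp.map_eq]
    rw [integral_map hmp.measurable.aemeasurable
      (measurable_log_ZcU u hu _).aestronglyMeasurable]
  have hk1 : AcanU u n (k + 1) = ∫ G, Real.log (ZcU u (fun (_ : Fin (k + 1)) (_ : Fin n) => c)
      G) ∂(Measure.pi (fun _ : Fin (k + 1) => gauss n)) := rfl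
  have hi1 : Integrable (fun G => Real.log (ZcU u (fun (_ : Fin (k + 1)) (_ : Fin n) => c) G))
      (Measure.pi (fun _ : Fin (k + 1) => gauss n)) := integrable_log_ZcU u θ hu hθ1 hθ _ _
  have hi2 : Integrable (fun G : Fin (k + 1) → Fin n → ℝ =>
      Real.log (ZcU u (fun (_ : Fin k) (_ : Fin n) => c) (fun a => G (Fin.castSucc a))))
      (Measure.pi (fun _ : Fin (k + 1) => gauss n)) :=
    (hmp.integrable_comp (measurable_log_ZcU u hu _).aestronglyMeasurable).2
      (integrable_log_ZcU u θ hu hθ1 hθ _ _)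
  rw [hk, hk1, ← integral_sub hi1 hi2]
  have h := norm_integral_le_of_norm_le_const
    (μ := Measure.pi (fun _ : Fin (k + 1) => gauss n))
    (f := fun G => Real.log (ZcU u (fun (_ : Fin (k + 1)) (_ : Fin n) => c) G)
      - Real.log (ZcU u (fun (_ : Fin k) (_ : Fin n) => c) (fun a => G (Fin.castSucc a))))
    (C := -Real.log (1 - θ))
    (Filter.Eventually.of_forall fun G => by
      simpa [Real.norm_eq_abs] using lipu_abs_log_ZcU_succ_sub u θ hθ1 hθ n k c G)
  simpa [Real.norm_eq_abs] using h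

/-- Telescoping: `m` extra patterns. -/
lemma lipu_AcanU_add (u : ℝ → ℝ) (hu : Continuous u) (θ : ℝ) (hθ1 : θ < 1)
    (hθ : ∀ s, |u s| ≤ θ) (n k m : ℕ) :
    |AcanU u n (k + m) - AcanU u n k| ≤ -Real.log (1 - θ) * m := by
  induction m with
  | zero => simp
  | succ m ih =>
    have h1 := lipu_AcanU_succ u hu θ hθ1 hθ n (k + m)
    have h2 : AcanU u n (k + (m + 1)) - AcanU u n k
        = (AcanU u n (k + m + 1) - AcanU u n (k + m))
          + (AcanU u n (k + m) - AcanU u n k) := by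
      rw [← add_assoc]; ring
    rw [h2]
    refine (abs_add_le _ _).trans ?_
    push_cast
    linarith

/-- `AcanU` is Lipschitz in the number of patterns, with constant `-log (1 - θ)`. -/
theorem AcanU_lipschitz (u : ℝ → ℝ) (hu : Continuous u) (θ : ℝ) (hθ1 : θ < 1)
    (hθ : ∀ s, |u s| ≤ θ) (n k k' : ℕ) :
    |AcanU u n k - AcanU u n k'| ≤ -Real.log (1 - θ) * |(k : ℝ) - k'| := by
  rcases le_total k' k with h | h
  · obtain ⟨m, rfl⟩ := Nat.exists_eq_add_of_le h
    have := lipu_AcanU_add u hu θ hθ1 hθ n k' m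
    have e : |((k' + m : ℕ) : ℝ) - k'| = m := by
      push_cast
      rw [add_sub_cancel_left, abs_of_nonneg (Nat.cast_nonneg m)]
    rw [e]
    exact this
  · obtain ⟨m, rfl⟩ := Nat.exists_eq_add_of_le h
    have := lipu_AcanU_add u hu θ hθ1 hθ n k m
    have e : |(k : ℝ) - ((k + m : ℕ) : ℝ)| = m := by
      push_cast
      rw [sub_add_cancel_left, abs_neg, abs_of_nonneg (Nat.cast_nonneg m)]
    rw [e, abs_sub_comm]
    exact this

end Vale.Agent.Lib.P157
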