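import Mathlib
import Vale.Agent.Lib.P157.Lim.Defs
import Vale.Agent.Lib.P157.PD.Defs
import Vale.Agent.Lib.P157.PD.ZcBasic
import Vale.Agent.Lib.P157.Lim.Moment

/-!
# P157: the Gaussian moment inequality for the cosine transform of a finite measure
-/

open MeasureTheory ProbabilityTheory

namespace Vale.Agent.Lib.P157

theorem abs_cosT_le (ν : Measure ℝ) [IsFiniteMeasure ν] (s : ℝ) :
    |cosT ν s| ≤ ν.real Set.univ := by
  unfold cosT
  have h := norm_integral_le_of_norm_le_const (μ := ν) (f := fun t => Real.cos (t * s))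
    (C := 1) (Filter.Eventually.of_forall fun t => by
      rw [Real.norm_eq_abs]
      exact Real.abs_cos_le_one _)
  rw [Real.norm_eq_abs, one_mul] at h
  exact h

theorem continuous_cosT (ν : Measure ℝ) [IsFiniteMeasure ν] : Continuous (cosT ν) := by
  unfold cosT
  refine continuous_of_dominated (bound := fun _ => (1 : ℝ)) ?_ ?_ ?_ ?_
  · intro s
    exact (by fun_prop : Continuous fun t : ℝ => Real.cos (t * s)).aestronglyMeasurable
  · intro s
    exact Filter.Eventually.of_forall fun t => by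
      rw [Real.norm_eq_abs]
      exact Real.abs_cos_le_one _
  · exact integrable_const 1
  · exact Filter.Eventually.of_forall fun t => by fun_prop

section momentu

variable {n : ℕ} {X : Type*} [Fintype X] (ν : Measure ℝ)

/-- The weighted sum of cosine transforms of linear forms. -/
noncomputable def momentu_T (c : Fin n → ℝ) (β : X → ℝ) (y : X → Fin n → ℝ)
    (g : Fin n → ℝ) : ℝ :=
  ∑ x, β x * cosT ν (∑ i, g i * c i * y x i)

/-- The Gaussian moment of the weighted sum with an extra cosine factor. -/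
noncomputable def momentu_I (c : Fin n → ℝ) (β : X → ℝ) (y : X → Fin n → ℝ) (r : ℕ)
    (z : Fin n → ℝ) : ℝ :=
  ∫ g, Real.cos (∑ i, g i * c i * z i) * momentu_T ν c β y g ^ r ∂(gauss n)

/-- The integrand of `momentu_I` at the shifted point `z + t • v`, as a function of `(g, t)`. -/
noncomputable def momentu_F (c : Fin n → ℝ) (β : X → ℝ) (y : X → Fin n → ℝ) (r : ℕ)
    (z v : Fin n → ℝ) (P : (Fin n → ℝ) × ℝ) : ℝ :=
  Real.cos (∑ i, P.1 i * c i * (z i + P.2 * v i)) * momentu_T ν c β y P.1 ^ r

variable [IsFiniteMeasure ν]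

lemma momentu_T_abs_le (c : Fin n → ℝ) (β : X → ℝ) (y : X → Fin n → ℝ) (g : Fin n → ℝ) :
    |momentu_T ν c β y g| ≤ ∑ x, |β x| * ν.real Set.univ := by
  unfold momentu_T
  refine (Finset.abs_sum_le_sum_abs _ _).trans (Finset.sum_le_sum fun x _ => ?_)
  rw [abs_mul]
  exact mul_le_mul_of_nonneg_left (abs_cosT_le ν _) (abs_nonneg _)

lemma momentu_continuous_T (c : Fin n → ℝ) (β : X → ℝ) (y : X → Fin n → ℝ) :
    Continuous (momentu_T ν c β y) := by
  unfold momentu_T
  have h := continuous_cosT ν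
  fun_prop

lemma momentu_F_abs_le (c : Fin n → ℝ) (β : X → ℝ) (y : X → Fin n → ℝ) (r : ℕ)
    (z v : Fin n → ℝ) (P : (Fin n → ℝ) × ℝ) :
    |momentu_F ν c β y r z v P| ≤ (∑ x, |β x| * ν.real Set.univ) ^ r := by
  unfold momentu_F
  rw [abs_mul, abs_pow]
  calc |Real.cos (∑ i, P.1 i * c i * (z i + P.2 * v i))| * |momentu_T ν c β y P.1| ^ r
      ≤ 1 * (∑ x, |β x| * ν.real Set.univ) ^ r :=
        mul_le_mul (Real.abs_cos_le_one _)
          (pow_le_pow_left₀ (abs_nonneg _) (momentu_T_abs_le ν c β y P.1) r)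
          (pow_nonneg (abs_nonneg _) r) zero_le_one
    _ = (∑ x, |β x| * ν.real Set.univ) ^ r := one_mul _

lemma momentu_continuous_F (c : Fin n → ℝ) (β : X → ℝ) (y : X → Fin n → ℝ) (r : ℕ)
    (z v : Fin n → ℝ) : Continuous (momentu_F ν c β y r z v) := by
  unfold momentu_F
  have h := momentu_continuous_T ν c β y
  fun_prop

/-- joint integrability in `(g, t)` -/
lemma momentu_integrable_F (c : Fin n → ℝ) (β : X → ℝ) (y : X → Fin n → ℝ) (r : ℕ)
    (z v : Fin n → ℝ) : Integrable (momentu_F ν c β y r z v) ((gauss n).prod ν) :=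
  Integrable.of_bound (momentu_continuous_F ν c β y r z v).aestronglyMeasurable
    ((∑ x, |β x| * ν.real Set.univ) ^ r)
    (Filter.Eventually.of_forall fun P => by
      rw [Real.norm_eq_abs]
      exact momentu_F_abs_le ν c β y r z v P)

/-- integrability in `g` for a fixed shift -/
lemma momentu_integrable_F_left (c : Fin n → ℝ) (β : X → ℝ) (y : X → Fin n → ℝ) (r : ℕ)
    (z v : Fin n → ℝ) (t : ℝ) :
    Integrable (fun g : Fin n → ℝ => momentu_F ν c β y r z v (g, t)) (gauss n) :=
  Integrable.of_bound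
    ((momentu_continuous_F ν c β y r z v).comp (by fun_prop :
      Continuous fun g : Fin n → ℝ => (g, t))).aestronglyMeasurable
    ((∑ x, |β x| * ν.real Set.univ) ^ r)
    (Filter.Eventually.of_forall fun g => by
      rw [Real.norm_eq_abs]
      exact momentu_F_abs_le ν c β y r z v (g, t))

omit [IsFiniteMeasure ν] in
lemma momentu_I_eq (c : Fin n → ℝ) (β : X → ℝ) (y : X → Fin n → ℝ) (r : ℕ)
    (z v : Fin n → ℝ) (t : ℝ) :
    momentu_I ν c β y r (fun i => z i + t * v i) =
      ∫ g, momentu_F ν c β y r z v (g, t) ∂(gauss n) := rfl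

/-- integrability in the shift parameter -/
lemma momentu_integrable_I (c : Fin n → ℝ) (β : X → ℝ) (y : X → Fin n → ℝ) (r : ℕ)
    (z v : Fin n → ℝ) :
    Integrable (fun t : ℝ => momentu_I ν c β y r (fun i => z i + t * v i)) ν :=
  (momentu_integrable_F ν c β y r z v).integral_prod_right

omit [IsFiniteMeasure ν] in
/-- the pointwise product formula -/
lemma momentu_pointwise (c : Fin n → ℝ) (β : X → ℝ) (y : X → Fin n → ℝ) (r : ℕ)
    (z : Fin n → ℝ) (g : Fin n → ℝ) :
    Real.cos (∑ i, g i * c i * z i) * momentu_T ν c β y g ^ (r + 1) =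
      ∑ x, β x / 2 * ∫ t, (momentu_F ν c β y r z (y x) (g, t) +
        momentu_F ν c β y r z (fun i => -(y x i)) (g, t)) ∂ν := by
  have hs : ∀ (x : X) (t : ℝ), momentu_F ν c β y r z (y x) (g, t) +
      momentu_F ν c β y r z (fun i => -(y x i)) (g, t) =
      (2 * Real.cos (∑ i, g i * c i * z i) * momentu_T ν c β y g ^ r) *
        Real.cos (t * ∑ i, g i * c i * y x i) := by
    intro x t
    unfold momentu_F
    have e1 : ∑ i, g i * c i * (z i + t * y x i) =
        ∑ i, g i * c i * z i + t * ∑ i, g i * c i * y x i := by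
      rw [Finset.mul_sum, ← Finset.sum_add_distrib]
      exact Finset.sum_congr rfl (fun i _ => by ring)
    have e2 : ∑ i, g i * c i * (z i + t * -(y x i)) =
        ∑ i, g i * c i * z i - t * ∑ i, g i * c i * y x i := by
      rw [Finset.mul_sum, ← Finset.sum_sub_distrib]
      exact Finset.sum_congr rfl (fun i _ => by ring)
    show Real.cos (∑ i, g i * c i * (z i + t * y x i)) * momentu_T ν c β y g ^ r +
      Real.cos (∑ i, g i * c i * (z i + t * -(y x i))) * momentu_T ν c β y g ^ r = _
    rw [e1, e2, Real.cos_add, Real.cos_sub]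
    ring
  have h2 : ∀ x : X, ∫ t, (momentu_F ν c β y r z (y x) (g, t) +
      momentu_F ν c β y r z (fun i => -(y x i)) (g, t)) ∂ν =
      (2 * Real.cos (∑ i, g i * c i * z i) * momentu_T ν c β y g ^ r) *
        cosT ν (∑ i, g i * c i * y x i) := by
    intro x
    simp only [hs x]
    rw [integral_const_mul]
    rfl
  simp only [h2]
  have h3 : ∑ x, β x / 2 * ((2 * Real.cos (∑ i, g i * c i * z i) * momentu_T ν c β y g ^ r) *
      cosT ν (∑ i, g i * c i * y x i)) =
      (Real.cos (∑ i, g i * c i * z i) * momentu_T ν c β y g ^ r) *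
        ∑ x, β x * cosT ν (∑ i, g i * c i * y x i) := by
    rw [Finset.mul_sum]
    exact Finset.sum_congr rfl (fun x _ => by ring)
  rw [h3, pow_succ]
  have h4 : ∑ x, β x * cosT ν (∑ i, g i * c i * y x i) = momentu_T ν c β y g := rfl
  rw [h4]
  ring

lemma momentu_I_succ (c : Fin n → ℝ) (β : X → ℝ) (y : X → Fin n → ℝ) (r : ℕ)
    (z : Fin n → ℝ) :
    momentu_I ν c β y (r + 1) z =
      ∑ x, β x / 2 * ∫ t, (momentu_I ν c β y r (fun i => z i + t * y x i) +
        momentu_I ν c β y r (fun i => z i + t * -(y x i))) ∂ν := by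
  have hFF : ∀ x : X, Integrable (fun P : (Fin n → ℝ) × ℝ => momentu_F ν c β y r z (y x) P +
      momentu_F ν c β y r z (fun i => -(y x i)) P) ((gauss n).prod ν) := fun x =>
    (momentu_integrable_F ν c β y r z (y x)).add
      (momentu_integrable_F ν c β y r z (fun i => -(y x i)))
  have h1 : momentu_I ν c β y (r + 1) z =
      ∫ g, ∑ x, β x / 2 * ∫ t, (momentu_F ν c β y r z (y x) (g, t) +
        momentu_F ν c β y r z (fun i => -(y x i)) (g, t)) ∂ν ∂(gauss n) := by
    unfold momentu_I
    refine integral_congr_ae (Filter.Eventually.of_forall (fun g => ?_))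
    exact momentu_pointwise ν c β y r z g
  rw [h1, integral_finsetSum _ (fun x _ => ((hFF x).integral_prod_left).const_mul _)]
  refine Finset.sum_congr rfl (fun x _ => ?_)
  rw [integral_const_mul]
  congr 1
  have h2 := integral_integral_swap (μ := gauss n) (ν := ν)
    (f := fun g t => momentu_F ν c β y r z (y x) (g, t) +
      momentu_F ν c β y r z (fun i => -(y x i)) (g, t)) (hFF x)
  rw [h2]
  refine integral_congr_ae (Filter.Eventually.of_forall (fun t => ?_))
  show ∫ g, (momentu_F ν c β y r z (y x) (g, t) +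
      momentu_F ν c β y r z (fun i => -(y x i)) (g, t)) ∂(gauss n) = _
  rw [integral_add (momentu_integrable_F_left ν c β y r z (y x) t)
    (momentu_integrable_F_left ν c β y r z (fun i => -(y x i)) t)]
  rfl

lemma momentu_I_mix (c0 c1 c2 : Fin n → ℝ) (p q : ℝ) (hp : 0 ≤ p) (hq : 0 ≤ q)
    (hpq : p + q = 1) (hc : ∀ i, c0 i ^ 2 = p * c1 i ^ 2 + q * c2 i ^ 2)
    (β : X → ℝ) (hβ : ∀ x, 0 ≤ β x) (y : X → Fin n → ℝ) (r : ℕ) :
    ∀ z : Fin n → ℝ,
      momentu_I ν c0 β y r z ≤ p * momentu_I ν c1 β y r z + q * momentu_I ν c2 β y r z := by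
  induction r with
  | zero =>
    intro z
    unfold momentu_I
    simp only [pow_zero, mul_one]
    have e : ∀ c : Fin n → ℝ, ∫ g, Real.cos (∑ i, g i * c i * z i) ∂(gauss n) =
        Real.exp (-(∑ i, (c i * z i) ^ 2) / 2) := by
      intro c
      have h := moment_cos_integral (fun i => c i * z i)
      simp only [← mul_assoc] at h
      exact h
    rw [e, e, e]
    have hsum : ∑ i, (c0 i * z i) ^ 2 =
        p * ∑ i, (c1 i * z i) ^ 2 + q * ∑ i, (c2 i * z i) ^ 2 := by
      rw [Finset.mul_sum, Finset.mul_sum, ← Finset.sum_add_distrib]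
      refine Finset.sum_congr rfl (fun i _ => ?_)
      rw [mul_pow, hc i]
      ring
    rw [hsum]
    have hconv := convexOn_exp.2 (Set.mem_univ (-(∑ i, (c1 i * z i) ^ 2) / 2))
      (Set.mem_univ (-(∑ i, (c2 i * z i) ^ 2) / 2)) hp hq hpq
    simp only [smul_eq_mul] at hconv
    have e3 : -(p * ∑ i, (c1 i * z i) ^ 2 + q * ∑ i, (c2 i * z i) ^ 2) / 2 =
        p * (-(∑ i, (c1 i * z i) ^ 2) / 2) + q * (-(∑ i, (c2 i * z i) ^ 2) / 2) := by ring
    rw [e3]
    exact hconv
  | succ r ih =>
    intro z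
    rw [momentu_I_succ, momentu_I_succ, momentu_I_succ, Finset.mul_sum, Finset.mul_sum,
      ← Finset.sum_add_distrib]
    refine Finset.sum_le_sum (fun x _ => ?_)
    have hint : ∀ c : Fin n → ℝ, Integrable (fun t : ℝ =>
        momentu_I ν c β y r (fun i => z i + t * y x i) +
          momentu_I ν c β y r (fun i => z i + t * -(y x i))) ν := fun c =>
      (momentu_integrable_I ν c β y r z (y x)).add
        (momentu_integrable_I ν c β y r z (fun i => -(y x i)))
    have hJ : ∫ t, (momentu_I ν c0 β y r (fun i => z i + t * y x i) +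
          momentu_I ν c0 β y r (fun i => z i + t * -(y x i))) ∂ν ≤
        p * ∫ t, (momentu_I ν c1 β y r (fun i => z i + t * y x i) +
          momentu_I ν c1 β y r (fun i => z i + t * -(y x i))) ∂ν +
        q * ∫ t, (momentu_I ν c2 β y r (fun i => z i + t * y x i) +
          momentu_I ν c2 β y r (fun i => z i + t * -(y x i))) ∂ν := by
      rw [← integral_const_mul, ← integral_const_mul,
        ← integral_add ((hint c1).const_mul p) ((hint c2).const_mul q)]
      refine integral_mono (hint c0) (((hint c1).const_mul p).add ((hint c2).const_mul q))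
        (fun t => ?_)
      have h1 := ih (fun i => z i + t * y x i)
      have h2 := ih (fun i => z i + t * -(y x i))
      show momentu_I ν c0 β y r (fun i => z i + t * y x i) +
          momentu_I ν c0 β y r (fun i => z i + t * -(y x i)) ≤
        p * (momentu_I ν c1 β y r (fun i => z i + t * y x i) +
          momentu_I ν c1 β y r (fun i => z i + t * -(y x i))) +
        q * (momentu_I ν c2 β y r (fun i => z i + t * y x i) +
          momentu_I ν c2 β y r (fun i => z i + t * -(y x i)))
      linarith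
    have hb : 0 ≤ β x / 2 := div_nonneg (hβ x) zero_le_two
    have h3 := mul_le_mul_of_nonneg_left hJ hb
    refine le_trans h3 (le_of_eq ?_)
    ring

end momentu

theorem moment_mix_ineq_measure {n : ℕ} (c0 c1 c2 : Fin n → ℝ) (p q : ℝ) (hp : 0 ≤ p) (hq : 0 ≤ q)
    (hpq : p + q = 1) (hc : ∀ i, c0 i ^ 2 = p * c1 i ^ 2 + q * c2 i ^ 2)
    {X : Type*} [Fintype X] (β : X → ℝ) (hβ : ∀ x, 0 ≤ β x) (ν : Measure ℝ) [IsFiniteMeasure ν]
    (y : X → Fin n → ℝ) (r : ℕ) :
    ∫ g, (∑ x, β x * cosT ν (∑ i, g i * c0 i * y x i)) ^ r ∂(gauss n)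
      ≤ p * ∫ g, (∑ x, β x * cosT ν (∑ i, g i * c1 i * y x i)) ^ r ∂(gauss n)
        + q * ∫ g, (∑ x, β x * cosT ν (∑ i, g i * c2 i * y x i)) ^ r ∂(gauss n) := by
  have h := momentu_I_mix ν c0 c1 c2 p q hp hq hpq hc β hβ y r (fun _ => 0)
  unfold momentu_I momentu_T at h
  simpa using h

end Vale.Agent.Lib.P157
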