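import Mathlib
import Vale.Agent.Lib.P157.Lim.Defs
import Vale.Agent.Lib.P157.Lim.LogSeries
import Vale.Agent.Lib.P157.PD.Defs
import Vale.Agent.Lib.P157.PD.ZcBasic
import Vale.Agent.Lib.P157.PD.MomentU

/-!
# P157: the one-pattern inequality for the cosine transform of a finite measure
-/

open MeasureTheory ProbabilityTheory

namespace Vale.Agent.Lib.P157

/-- The one-pattern inequality for a weight `1 - u`: replacing a pattern acting through `c0` by a
pattern acting through `c1` with probability `p` and through `c2` with probability `q` lowers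
the expected logarithm, for every positive weight `w` on the configurations. -/
def OnePatternIneq (u : ℝ → ℝ) : Prop :=
  ∀ (n : ℕ) (c0 c1 c2 : Fin n → ℝ) (p q : ℝ), 0 ≤ p → 0 ≤ q → p + q = 1 →
    (∀ i, c0 i ^ 2 = p * c1 i ^ 2 + q * c2 i ^ 2) →
    ∀ w : (Fin n → Bool) → ℝ, (∀ x, 0 < w x) →
      p * ∫ g, Real.log (∑ x, w x * (1 - u (∑ i, g i * c1 i * sg (x i)))) ∂(gauss n)
        + q * ∫ g, Real.log (∑ x, w x * (1 - u (∑ i, g i * c2 i * sg (x i)))) ∂(gauss n)
      ≤ ∫ g, Real.log (∑ x, w x * (1 - u (∑ i, g i * c0 i * sg (x i)))) ∂(gauss n)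

theorem onePatternIneq_cosT (ν : Measure ℝ) [IsFiniteMeasure ν] (hν : ν.real Set.univ < 1) :
    OnePatternIneq (cosT ν) := by
  classical
  intro n c0 c1 c2 p q hp hq hpq hc w hw
  have hu := continuous_cosT ν
  set W : ℝ := ∑ x, w x with hW
  have hWpos : 0 < W := Finset.sum_pos (fun x _ => hw x) Finset.univ_nonempty
  set T : (Fin n → ℝ) → (Fin n → ℝ) → ℝ := fun c g =>
    ∑ x, w x / W * cosT ν (∑ i, g i * c i * sg (x i)) with hT
  have hsumw : ∑ x, w x / W = 1 := by
    rw [← Finset.sum_div, ← hW, div_self hWpos.ne']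
  have hTabs : ∀ c g, |T c g| ≤ ν.real Set.univ := by
    intro c g
    simp only [hT]
    calc |∑ x, w x / W * cosT ν (∑ i, g i * c i * sg (x i))|
        ≤ ∑ x, |w x / W * cosT ν (∑ i, g i * c i * sg (x i))| := Finset.abs_sum_le_sum_abs _ _
      _ ≤ ∑ x, w x / W * ν.real Set.univ := by
          refine Finset.sum_le_sum fun x _ => ?_
          rw [abs_mul, abs_of_pos (div_pos (hw x) hWpos)]
          exact mul_le_mul_of_nonneg_left (abs_cosT_le ν _) (div_pos (hw x) hWpos).le
      _ = ν.real Set.univ := by rw [← Finset.sum_mul, hsumw, one_mul]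
  have hTmeas : ∀ c, Measurable (T c) := by
    intro c
    have : Continuous (T c) := by
      simp only [hT]
      fun_prop
    exact this.measurable
  have hkey : ∀ c g, ∑ x, w x * (1 - cosT ν (∑ i, g i * c i * sg (x i))) = W * (1 - T c g) := by
    intro c g
    have h1 : W * T c g = ∑ x, w x * cosT ν (∑ i, g i * c i * sg (x i)) := by
      simp only [hT]
      rw [Finset.mul_sum]
      refine Finset.sum_congr rfl fun x _ => ?_
      field_simp
    have h2 : ∑ x, w x * (1 - cosT ν (∑ i, g i * c i * sg (x i)))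
        = (∑ x, w x) - ∑ x, w x * cosT ν (∑ i, g i * c i * sg (x i)) := by
      rw [← Finset.sum_sub_distrib]
      refine Finset.sum_congr rfl fun x _ => ?_
      ring
    rw [h2, ← h1, mul_sub, mul_one]
  have hlog : ∀ c g, Real.log (∑ x, w x * (1 - cosT ν (∑ i, g i * c i * sg (x i))))
      = Real.log W + Real.log (1 - T c g) := by
    intro c g
    rw [hkey]
    have h1 : 0 < 1 - T c g := by
      have := le_of_abs_le (hTabs c g)
      linarith
    exact Real.log_mul hWpos.ne' h1.ne'
  have hθ0 : 0 ≤ ν.real Set.univ := measureReal_nonneg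
  have hint : ∀ c, Integrable (fun g => Real.log (1 - T c g)) (gauss n) := by
    intro c
    refine Integrable.of_bound
      (Real.measurable_log.comp (measurable_const.sub (hTmeas c))).aestronglyMeasurable
      (-Real.log (1 - ν.real Set.univ)) (Filter.Eventually.of_forall fun g => ?_)
    have h1 := hTabs c g
    have h2 : 0 < 1 - ν.real Set.univ := by linarith
    have h3 : 1 - ν.real Set.univ ≤ 1 - T c g := by
      have := le_of_abs_le h1
      linarith
    have h4 : 1 - T c g ≤ 1 + ν.real Set.univ := by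
      have := neg_le_of_abs_le h1
      linarith
    have h5 := Real.log_le_log h2 h3
    have h6 := Real.log_le_log (lt_of_lt_of_le h2 h3) h4
    have h7 := log_one_add_theta_le (ν.real Set.univ) hθ0 hν
    rw [Real.norm_eq_abs, abs_le]
    constructor <;> linarith
  have hI : ∀ c, ∫ g, Real.log (∑ x, w x * (1 - cosT ν (∑ i, g i * c i * sg (x i)))) ∂(gauss n)
      = Real.log W + ∫ g, Real.log (1 - T c g) ∂(gauss n) := by
    intro c
    simp_rw [hlog c]
    rw [integral_add (integrable_const _) (hint c)]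
    simp
  rw [hI c0, hI c1, hI c2]
  have hmom : ∀ r : ℕ, ∫ g, T c0 g ^ r ∂(gauss n)
      ≤ p * ∫ g, T c1 g ^ r ∂(gauss n) + q * ∫ g, T c2 g ^ r ∂(gauss n) := by
    intro r
    exact moment_mix_ineq_measure c0 c1 c2 p q hp hq hpq hc
      (β := fun x : Fin n → Bool => w x / W) (fun x => (div_pos (hw x) hWpos).le) ν
      (fun x i => sg (x i)) r
  have hmain := log_one_sub_mix_ineq (gauss n) (T c0) (T c1) (T c2) (hTmeas c0) (hTmeas c1)
    (hTmeas c2) (ν.real Set.univ) hν (hTabs c0) (hTabs c1) (hTabs c2) p q hp hq hpq hmom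
  have hWW : p * Real.log W + q * Real.log W = Real.log W := by
    rw [← add_mul, hpq, one_mul]
  linarith

end Vale.Agent.Lib.P157
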