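import Mathlib
import Vale.Agent.Lib.P157.Lim.Defs
import Vale.Agent.Lib.P157.Lim.Coin
import Vale.Agent.Lib.P157.Lim.Assembly
import Vale.Agent.Lib.P157.PD.Defs
import Vale.Agent.Lib.P157.PD.ZcBasic
import Vale.Agent.Lib.P157.PD.BlocksU
import Vale.Agent.Lib.P157.PD.OnePatternU
import Vale.Agent.Lib.P157.PD.ChainU
import Vale.Agent.Lib.P157.PD.LipschitzU

/-!
# P157: almost superadditivity of the expected log partition function, abstract weight `1 - u`

Port of `Lim/Assembly.lean` to an abstract continuous `u` with `|u| ≤ θ < 1` that satisfies the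
one-pattern inequality `OnePatternIneq u`.
-/

open MeasureTheory ProbabilityTheory Filter

namespace Vale.Agent.Lib.P157

variable (u : ℝ → ℝ) (θ : ℝ)

/-- Lower bound for the coin average of the two block systems. -/
lemma mixU_lower (hu : Continuous u) (hθ1 : θ < 1) (hθ : ∀ s, |u s| ≤ θ)
    (N1 N2 M m1 m2 : ℕ) (p : ℝ) (hp0 : 0 ≤ p) (hp1 : p ≤ 1) :
    AcanU u N1 m1 + AcanU u N2 m2
        - (-Real.log (1 - θ)) * (Real.sqrt (M * p * (1 - p)) + |(M : ℝ) * p - m1|)
        - (-Real.log (1 - θ))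
          * (Real.sqrt (M * p * (1 - p)) + |(M : ℝ) * p - ((M : ℝ) - m2)|)
      ≤ ∫ β : Fin M → Bool, (AcanU u N1 (Finset.univ.filter (fun a => β a = true)).card
          + AcanU u N2 (Finset.univ.filter (fun a => β a = false)).card)
          ∂(Measure.pi (fun _ : Fin M => bern p)) := by
  classical
  have hC0nn : 0 ≤ -Real.log (1 - θ) :=
    neg_log_one_sub_theta_nonneg θ (theta_nonneg u θ hθ) hθ1
  have hprob := bern_isProbabilityMeasure p hp0 hp1
  have hpt : ∀ β : Fin M → Bool,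
      AcanU u N1 m1 + AcanU u N2 m2
        - (-Real.log (1 - θ))
          * |((Finset.univ.filter (fun a => β a = true)).card : ℝ) - m1|
        - (-Real.log (1 - θ))
          * |((Finset.univ.filter (fun a => β a = true)).card : ℝ) - ((M : ℝ) - m2)|
      ≤ AcanU u N1 (Finset.univ.filter (fun a => β a = true)).card
          + AcanU u N2 (Finset.univ.filter (fun a => β a = false)).card := by
    intro β
    have e1 := AcanU_lipschitz u hu θ hθ1 hθ N1 m1 (Finset.univ.filter (fun a => β a = true)).card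
    have e2 := AcanU_lipschitz u hu θ hθ1 hθ N2 m2 (Finset.univ.filter (fun a => β a = false)).card
    rw [card_false_eq β] at e2
    have e1' := (abs_le.mp e1).2
    have e2' := (abs_le.mp e2).2
    have a1 : |(m1 : ℝ) - (Finset.univ.filter (fun a => β a = true)).card|
        = |((Finset.univ.filter (fun a => β a = true)).card : ℝ) - m1| := abs_sub_comm _ _
    have a2 : |(m2 : ℝ) - ((M : ℝ) - (Finset.univ.filter (fun a => β a = true)).card)|
        = |((Finset.univ.filter (fun a => β a = true)).card : ℝ) - ((M : ℝ) - m2)| := by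
      congr 1
      ring
    rw [a1] at e1'
    rw [a2] at e2'
    linarith
  have hint : ∀ F : (Fin M → Bool) → ℝ, Integrable F (Measure.pi (fun _ : Fin M => bern p)) :=
    fun F => Integrable.of_finite
  have hmono := integral_mono (hint _) (hint _) hpt
  have hdev1 := bern_abs_dev p hp0 hp1 M m1
  have hdev2 := bern_abs_dev p hp0 hp1 M ((M : ℝ) - m2)
  have hlhs : ∫ β : Fin M → Bool, (AcanU u N1 m1 + AcanU u N2 m2
        - (-Real.log (1 - θ))
          * |((Finset.univ.filter (fun a => β a = true)).card : ℝ) - m1|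
        - (-Real.log (1 - θ))
          * |((Finset.univ.filter (fun a => β a = true)).card : ℝ) - ((M : ℝ) - m2)|)
        ∂(Measure.pi (fun _ : Fin M => bern p))
      = AcanU u N1 m1 + AcanU u N2 m2
        - (-Real.log (1 - θ)) * ∫ β : Fin M → Bool,
            |((Finset.univ.filter (fun a => β a = true)).card : ℝ) - m1|
            ∂(Measure.pi (fun _ : Fin M => bern p))
        - (-Real.log (1 - θ)) * ∫ β : Fin M → Bool,
            |((Finset.univ.filter (fun a => β a = true)).card : ℝ) - ((M : ℝ) - m2)|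
            ∂(Measure.pi (fun _ : Fin M => bern p)) := by
    rw [integral_sub (hint _) (hint _), integral_sub (hint _) (hint _), integral_const_mul,
      integral_const_mul]
    simp
  rw [hlhs] at hmono
  have hfin1 := mul_le_mul_of_nonneg_left hdev1 hC0nn
  have hfin2 := mul_le_mul_of_nonneg_left hdev2 hC0nn
  linarith

/-- Almost superadditivity of `N ↦ AcanU N ⌊α N⌋`. -/
theorem AcanU_almost_superadditive (hu : Continuous u) (hθ1 : θ < 1) (hθ : ∀ s, |u s| ≤ θ)
    (hOne : OnePatternIneq u) (α : ℝ) (hα : 0 ≤ α)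
    (N1 N2 : ℕ) (hN1 : 1 ≤ N1) (hN2 : 1 ≤ N2) :
    AcanU u N1 ⌊α * N1⌋₊ + AcanU u N2 ⌊α * N2⌋₊
        - (2 * (-Real.log (1 - θ)) * Real.sqrt α)
          * Real.sqrt ((N1 : ℝ) * N2 / (N1 + N2))
        - 2 * (-Real.log (1 - θ))
      ≤ AcanU u (N1 + N2) ⌊α * ((N1 + N2 : ℕ) : ℝ)⌋₊ := by
  classical
  have hC0nn : 0 ≤ -Real.log (1 - θ) :=
    neg_log_one_sub_theta_nonneg θ (theta_nonneg u θ hθ) hθ1
  have h1 : (0 : ℝ) < N1 := by exact_mod_cast hN1
  have h2 : (0 : ℝ) < N2 := by exact_mod_cast hN2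
  have hNpos : (0 : ℝ) < ((N1 + N2 : ℕ) : ℝ) := by push_cast; linarith
  have hp0 : 0 ≤ (N1 : ℝ) / ((N1 + N2 : ℕ) : ℝ) := div_nonneg h1.le hNpos.le
  have hp1 : (N1 : ℝ) / ((N1 + N2 : ℕ) : ℝ) ≤ 1 := by
    rw [div_le_one hNpos]
    push_cast
    linarith
  -- the chain
  have hchain := mixU_le_full u hu θ hθ1 hθ
    (fun _ : Fin (N1 + N2) => (Real.sqrt ((N1 + N2 : ℕ) : ℝ))⁻¹)
    (blockCoef1 N1 N2) (blockCoef2 N1 N2) ((N1 : ℝ) / ((N1 + N2 : ℕ) : ℝ)) hp0 hp1
    (fun w hw => hOne (N1 + N2) _ _ _ _ _ hp0 (by linarith) (by ring)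
      (fun i => coef_mix N1 N2 hN1 hN2 i) w hw) ⌊α * ((N1 + N2 : ℕ) : ℝ)⌋₊
  have hfull : AcU u (fun (_ : Fin ⌊α * ((N1 + N2 : ℕ) : ℝ)⌋₊) (_ : Fin (N1 + N2)) =>
      (Real.sqrt ((N1 + N2 : ℕ) : ℝ))⁻¹) = AcanU u (N1 + N2) ⌊α * ((N1 + N2 : ℕ) : ℝ)⌋₊ := rfl
  rw [hfull] at hchain
  have hblocks : ∀ β : Fin ⌊α * ((N1 + N2 : ℕ) : ℝ)⌋₊ → Bool,
      AcU u (fun a => if β a then blockCoef1 N1 N2 else blockCoef2 N1 N2)
        = AcanU u N1 (Finset.univ.filter (fun a => β a = true)).card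
          + AcanU u N2 (Finset.univ.filter (fun a => β a = false)).card :=
    fun β => AcU_blocks u hu θ hθ1 hθ N1 N2 _ β
  simp_rw [hblocks] at hchain
  have hlow := mixU_lower u θ hu hθ1 hθ N1 N2 ⌊α * ((N1 + N2 : ℕ) : ℝ)⌋₊ ⌊α * N1⌋₊ ⌊α * N2⌋₊
    ((N1 : ℝ) / ((N1 + N2 : ℕ) : ℝ)) hp0 hp1
  have hd1 := floor_dev1 α hα N1 N2 hN1 hN2
  have hd2 := floor_dev2 α hα N1 N2 hN1 hN2
  have hv := floor_var α hα N1 N2 hN1 hN2
  have hfin := hlow.trans hchain
  have k1 := mul_le_mul_of_nonneg_left (add_le_add hv hd1) hC0nn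
  have k2 := mul_le_mul_of_nonneg_left (add_le_add hv hd2) hC0nn
  linarith

end Vale.Agent.Lib.P157
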