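import Mathlib
import Vale.Agent.Lib.P157.Lim.Defs
import Vale.Agent.Lib.P157.Lim.Fekete
import Vale.Agent.Lib.P157.PD.Defs
import Vale.Agent.Lib.P157.PD.ZcBasic
import Vale.Agent.Lib.P157.PD.MomentU
import Vale.Agent.Lib.P157.PD.OnePatternU
import Vale.Agent.Lib.P157.PD.AssemblyU

/-!
# P157: existence of the limiting pressure, general positive definite case
-/

open MeasureTheory ProbabilityTheory Filter

namespace Vale.Agent.Lib.P157

variable (u : ℝ → ℝ) (θ : ℝ)

/-- The normalised expected log partition function converges. -/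
theorem AcanU_tendsto (hu : Continuous u) (hθ1 : θ < 1) (hθ : ∀ s, |u s| ≤ θ)
    (hOne : OnePatternIneq u) (α : ℝ) (hα : 0 ≤ α) :
    ∃ L : ℝ, Tendsto (fun N : ℕ => AcanU u N ⌊α * N⌋₊ / N) atTop (nhds L) := by
  have hθ0 := theta_nonneg u θ hθ
  have hC0nn : 0 ≤ -Real.log (1 - θ) := neg_log_one_sub_theta_nonneg θ hθ0 hθ1
  refine tendsto_div_of_almost_superadditive (fun N : ℕ => AcanU u N ⌊α * N⌋₊)
    (2 * (-Real.log (1 - θ)) * Real.sqrt α) (2 * (-Real.log (1 - θ)))
    (Real.log 2 + α * Real.log 2) (by positivity) (by positivity) ?_ ?_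
  · intro N
    have h1 := AcU_le u θ hu hθ1 hθ (fun (_ : Fin ⌊α * N⌋₊) (_ : Fin N) => (Real.sqrt N)⁻¹)
    have h2 : Real.log (1 + θ) ≤ Real.log 2 :=
      Real.log_le_log (by linarith) (by linarith)
    have h3 : (⌊α * N⌋₊ : ℝ) ≤ α * N := Nat.floor_le (mul_nonneg hα (Nat.cast_nonneg N))
    have h4 : (0 : ℝ) ≤ Real.log 2 := Real.log_nonneg (by norm_num)
    have h5 : (0 : ℝ) ≤ Real.log (1 + θ) := Real.log_nonneg (by linarith)
    have h6 : (Fintype.card (Fin ⌊α * N⌋₊) : ℝ) = ⌊α * N⌋₊ := by simp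
    rw [h6] at h1
    have h7 : (⌊α * N⌋₊ : ℝ) * Real.log (1 + θ) ≤ (α * N) * Real.log 2 :=
      mul_le_mul h3 h2 h5 (mul_nonneg hα (Nat.cast_nonneg N))
    show AcanU u N ⌊α * N⌋₊ ≤ (Real.log 2 + α * Real.log 2) * N
    have h8 : AcanU u N ⌊α * N⌋₊
        = AcU u (fun (_ : Fin ⌊α * N⌋₊) (_ : Fin N) => (Real.sqrt N)⁻¹) := rfl
    rw [h8]
    nlinarith
  · intro m n hm hn
    exact AcanU_almost_superadditive u θ hu hθ1 hθ hOne α hα m n hm hn

/-- The expected pressure in terms of `AcanU`. -/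
lemma pressureU_eq (hu : Continuous u) (hθ1 : θ < 1) (hθ : ∀ s, |u s| ≤ θ)
    (c : ℝ) (N M : ℕ) (hN : 1 ≤ N) :
    ∫ G : Fin M → Fin N → ℝ, (1 / (N : ℝ)) * Real.log ((∑ x : Fin N → Bool,
        Real.exp (∑ a, (c + Real.log (1 - u
          ((∑ i, G a i * (if x i then 1 else -1)) / Real.sqrt N))))) / 2 ^ N)
      ∂(Measure.pi (fun _ : Fin M => Measure.pi (fun _ : Fin N => gaussianReal 0 1)))
    = (M : ℝ) / N * c - Real.log 2 + AcanU u N M / N := by
  have hNpos : (0 : ℝ) < N := by exact_mod_cast hN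
  have hpt : ∀ G : Fin M → Fin N → ℝ, (1 / (N : ℝ)) * Real.log ((∑ x : Fin N → Bool,
        Real.exp (∑ a, (c + Real.log (1 - u
          ((∑ i, G a i * (if x i then 1 else -1)) / Real.sqrt N))))) / 2 ^ N)
      = ((M : ℝ) / N * c - Real.log 2)
        + (1 / (N : ℝ)) * Real.log (ZcU u (fun (_ : Fin M) (_ : Fin N) => (Real.sqrt N)⁻¹) G) := by
    intro G
    have hterm : ∀ x : Fin N → Bool,
        Real.exp (∑ a, (c + Real.log (1 - u
          ((∑ i, G a i * (if x i then 1 else -1)) / Real.sqrt N))))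
        = Real.exp (M * c) * ∏ a, (1 - u (∑ i, G a i * (Real.sqrt N)⁻¹ * sg (x i))) := by
      intro x
      have hu' : ∀ a : Fin M, u ((∑ i, G a i * (if x i then 1 else -1)) / Real.sqrt N)
          = u (∑ i, G a i * (Real.sqrt N)⁻¹ * sg (x i)) := by
        intro a
        have : (∑ i, G a i * (if x i then (1 : ℝ) else -1)) / Real.sqrt N
            = ∑ i, G a i * (Real.sqrt N)⁻¹ * sg (x i) := by
          rw [Finset.sum_div]
          refine Finset.sum_congr rfl fun i _ => ?_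
          unfold sg
          rw [div_eq_mul_inv]
          ring
        rw [this]
      simp_rw [hu']
      rw [Finset.sum_add_distrib, Real.exp_add]
      have e1 : ∑ _a : Fin M, c = (M : ℝ) * c := by simp
      have e2 : Real.exp (∑ a : Fin M,
          Real.log (1 - u (∑ i, G a i * (Real.sqrt N)⁻¹ * sg (x i))))
          = ∏ a : Fin M, (1 - u (∑ i, G a i * (Real.sqrt N)⁻¹ * sg (x i))) := by
        rw [Real.exp_sum]
        refine Finset.prod_congr rfl fun a _ => ?_
        exact Real.exp_log (one_sub_u_pos u θ hθ1 hθ _)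
      rw [e1, e2]
    simp_rw [hterm]
    rw [← Finset.mul_sum]
    have hZ : ∑ x : Fin N → Bool, ∏ a : Fin M,
        (1 - u (∑ i, G a i * (Real.sqrt N)⁻¹ * sg (x i)))
        = ZcU u (fun (_ : Fin M) (_ : Fin N) => (Real.sqrt N)⁻¹) G := rfl
    rw [hZ]
    have hZpos := ZcU_pos u θ hθ1 hθ (fun (_ : Fin M) (_ : Fin N) => (Real.sqrt N)⁻¹) G
    rw [Real.log_div (mul_pos (Real.exp_pos _) hZpos).ne' (by positivity),
      Real.log_mul (Real.exp_pos _).ne' hZpos.ne', Real.log_exp, Real.log_pow]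
    field_simp
    ring
  simp_rw [hpt]
  have hint := integrable_log_ZcU u θ hu hθ1 hθ (fun (_ : Fin M) (_ : Fin N) => (Real.sqrt N)⁻¹)
    (Measure.pi (fun _ : Fin M => Measure.pi (fun _ : Fin N => gaussianReal 0 1)))
  rw [integral_add (integrable_const _) (hint.const_mul _), integral_const_mul]
  have hA : ∫ G, Real.log (ZcU u (fun (_ : Fin M) (_ : Fin N) => (Real.sqrt N)⁻¹) G)
      ∂(Measure.pi (fun _ : Fin M => Measure.pi (fun _ : Fin N => gaussianReal 0 1)))
      = AcanU u N M := rfl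
  rw [hA]
  simp
  ring

/-- Existence of the limiting pressure for `f s = c + log (1 - u s)`, abstract `u`. -/
theorem pressureU_tendsto (hu : Continuous u) (hθ1 : θ < 1) (hθ : ∀ s, |u s| ≤ θ)
    (hOne : OnePatternIneq u) (c α : ℝ) (hα : 0 < α) :
    ∃ L : ℝ, Tendsto (fun N : ℕ =>
      ∫ G : Fin ⌊α * N⌋₊ → Fin N → ℝ, (1 / (N : ℝ)) * Real.log ((∑ x : Fin N → Bool,
        Real.exp (∑ a, (c + Real.log (1 - u
          ((∑ i, G a i * (if x i then 1 else -1)) / Real.sqrt N))))) / 2 ^ N)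
      ∂(Measure.pi (fun _ : Fin ⌊α * N⌋₊ => Measure.pi (fun _ : Fin N => gaussianReal 0 1))))
      atTop (nhds L) := by
  obtain ⟨L, hL⟩ := AcanU_tendsto u θ hu hθ1 hθ hOne α hα.le
  refine ⟨α * c - Real.log 2 + L, ?_⟩
  have hfl : Tendsto (fun N : ℕ => (⌊α * (N : ℝ)⌋₊ : ℝ) / (N : ℝ)) atTop (nhds α) :=
    (tendsto_nat_floor_mul_div_atTop hα.le).comp tendsto_natCast_atTop_atTop
  have hlim : Tendsto (fun N : ℕ => (⌊α * (N : ℝ)⌋₊ : ℝ) / (N : ℝ) * c - Real.log 2
      + AcanU u N ⌊α * N⌋₊ / N) atTop (nhds (α * c - Real.log 2 + L)) :=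
    ((hfl.mul_const c).sub_const _).add hL
  refine hlim.congr' ?_
  filter_upwards [eventually_ge_atTop 1] with N hN
  exact (pressureU_eq u θ hu hθ1 hθ c N ⌊α * N⌋₊ hN).symm

/-- **Existence of the limiting pressure** for the potentials `f s = c + log (1 - u s)`, where
`u s = ∫ t, cos (t * s) ∂ν` is the cosine transform of a measure `ν` on the real line of total
mass less than one (by Bochner's theorem: `u` any real continuous positive definite function
with `u 0 < 1`), at every pattern density `α > 0`, on the Ising cube. -/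
theorem pressure_tendsto_PD (ν : Measure ℝ) (hν : ν Set.univ < 1) (c α : ℝ) (hα : 0 < α) :
    ∃ L : ℝ, Tendsto (fun N : ℕ =>
      ∫ G : Fin ⌊α * N⌋₊ → Fin N → ℝ, (1 / (N : ℝ)) * Real.log ((∑ x : Fin N → Bool,
        Real.exp (∑ a, (c + Real.log (1 - ∫ t, Real.cos
          (t * ((∑ i, G a i * (if x i then 1 else -1)) / Real.sqrt N)) ∂ν)))) / 2 ^ N)
      ∂(Measure.pi (fun _ : Fin ⌊α * N⌋₊ => Measure.pi (fun _ : Fin N => gaussianReal 0 1))))
      atTop (nhds L) := by
  have : IsFiniteMeasure ν := ⟨hν.trans ENNReal.one_lt_top⟩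
  have hν' : ν.real Set.univ < 1 := by
    have h := (ENNReal.toReal_lt_toReal (measure_ne_top ν Set.univ) ENNReal.one_ne_top).mpr hν
    simpa [Measure.real] using h
  exact pressureU_tendsto (cosT ν) (ν.real Set.univ) (continuous_cosT ν) hν'
    (abs_cosT_le ν) (onePatternIneq_cosT ν hν') c α hα

end Vale.Agent.Lib.P157
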